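import Vale.Agent.P160L.Main

namespace Vale.Agent.Results.P160.Linear

open Filter Topology Vale.Agent.P160

open Classical in
theorem result (ε : ℝ) (h0 : 0 < ε) (h1 : ε < 1) :
    Tendsto (fun n : ℕ => prob n (fun A => ∃ v : Fin n → ℝ, v ≠ 0 ∧ A.mulVec v = 0 ∧
      ∃ G : Finset (Fin n), ε * n ≤ G.card ∧ 32 * (G.image v).card ≤ G.card) ^ (1 / (n : ℝ)))
      atTop (𝓝 (1 / 2)) := by
  have e : ∀ (n : ℕ) (A : Matrix (Fin n) (Fin n) ℝ) (v : Fin n → ℝ),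
      A.mulVec v = 0 ↔ ∀ i, ∑ j, A i j * v j = 0 := fun n A v => funext_iff
  simp only [e]
  exact rate (lowerL h1) fun δ hδ => upperL h0 h1 hδ

end Vale.Agent.Results.P160.Linear
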