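import Vale.Agent.P160S.Main

open P160S Filter

theorem Vale.Agent.Results.P160.Subspaces.result (ε : ℝ) (hε : 0 < ε) :
    (∀ δ κ : ℝ, 0 ≤ κ → 2 * κ < δ → ∀ᶠ n : ℕ in atTop,
      ∀ 𝓕 : Finset (Submodule ℝ (Fin n → ℝ)), (𝓕.card : ℝ) ≤ (n : ℝ) ^ (κ * n) →
      (∀ V ∈ 𝓕, (Module.finrank ℝ V : ℝ) ≤ (1 - δ) * n) →
      prob n (fun A => ∃ V ∈ 𝓕, ∃ v ∈ V, v ≠ 0 ∧ A.mulVec v = 0) ≤ (1 / 2 + ε) ^ n) ∧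
    (∀ δ : ℝ, 0 < δ → ∀ᶠ n : ℕ in atTop, prob n (fun A => ∃ v : Fin n → ℝ, v ≠ 0 ∧
      (({i | v i ≠ 0} : Set (Fin n)).ncard : ℝ) ≤ (1 - δ) * n ∧ A.mulVec v = 0) ≤
        (1 / 2 + ε) ^ n) ∧
    (∀ κ : ℝ, 0 ≤ κ → κ < 1 / 2 → ∀ᶠ n : ℕ in atTop, prob n (fun A => ∃ v : Fin n → ℝ, v ≠ 0 ∧
      ((Set.range v).ncard : ℝ) ≤ (n : ℝ) ^ κ ∧ A.mulVec v = 0) ≤ (1 / 2 + ε) ^ n) :=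
  ⟨fun δ κ h0 h => main δ κ ε hε h h0, fun δ h => supp_main δ ε h hε,
    fun κ h0 h => val_main κ ε h0 h hε⟩
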